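import Mathlib

namespace Vale.Agent.Lib.P226.H7

open MeasureTheory ProbabilityTheory

variable {E : Type*} [NormedAddCommGroup E] [InnerProductSpace ℝ E]

/-- The direction of a vector (zero for the zero vector). -/
noncomputable def dir (w : E) : E := ‖w‖⁻¹ • w

lemma norm_dir {w : E} (hw : w ≠ 0) : ‖dir w‖ = 1 := by
  have : ‖w‖ ≠ 0 := norm_ne_zero_iff.mpr hw
  simp [dir, norm_smul, this]

lemma norm_dir_le (w : E) : ‖dir w‖ ≤ 1 := by
  by_cases hw : w = 0
  · subst hw; simp [dir]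
  · exact (norm_dir hw).le

lemma norm_smul_dir {w : E} (hw : w ≠ 0) : ‖w‖ • dir w = w := by
  have : ‖w‖ ≠ 0 := norm_ne_zero_iff.mpr hw
  simp [dir, smul_smul, this]

lemma dir_map (U : E ≃ₗᵢ[ℝ] E) (w : E) : dir (U w) = U (dir w) := by
  simp [dir, U.norm_map]

variable [FiniteDimensional ℝ E] [MeasurableSpace E] [BorelSpace E]

lemma measurable_dir : Measurable (dir : E → E) := by
  unfold dir
  fun_prop

lemma inner_inv (μ : Measure E) [IsFiniteMeasure μ]
    (hμ : ∀ U : E ≃ₗᵢ[ℝ] E, μ.map U = μ) (t g : E) :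
    ∫ w, (‖w‖ : ℂ) * Complex.exp ((inner ℝ (‖g‖ • dir w) t : ℝ) * Complex.I) ∂μ
      = ∫ w, (‖w‖ : ℂ) * Complex.exp ((inner ℝ g (‖t‖ • dir w) : ℝ) * Complex.I) ∂μ := by
  by_cases hg : g = 0
  · subst hg; simp
  set t' : E := ‖t‖ • dir g with ht'
  have hnorm : ‖t‖ = ‖t'‖ := by
    rw [ht', norm_smul, norm_dir hg]; simp
  set U : E ≃ₗᵢ[ℝ] E := (ℝ ∙ (t - t'))ᗮ.reflection with hU
  have hUt : U t = t' := Submodule.reflection_sub hnorm
  let G : E → ℂ := fun w =>
    (‖w‖ : ℂ) * Complex.exp ((inner ℝ (‖g‖ • dir w) t' : ℝ) * Complex.I)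
  have hG : Measurable G := by
    have := measurable_dir (E := E)
    fun_prop
  have h1 : ∫ w, G w ∂μ = ∫ w, G (U w) ∂μ := by
    conv_lhs => rw [← hμ U]
    exact integral_map U.continuous.measurable.aemeasurable hG.aestronglyMeasurable
  have h2 : ∀ w, G (U w)
      = (‖w‖ : ℂ) * Complex.exp ((inner ℝ (‖g‖ • dir w) t : ℝ) * Complex.I) := by
    intro w
    simp only [G]
    rw [U.norm_map, dir_map, ← hUt, ← map_smul, U.inner_map_map]
  have h3 : ∀ w, G w
      = (‖w‖ : ℂ) * Complex.exp ((inner ℝ g (‖t‖ • dir w) : ℝ) * Complex.I) := by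
    intro w
    simp only [G, ht']
    have e1 : inner ℝ g (‖t‖ • dir w) = ‖t‖ * (‖g‖ * inner ℝ (dir g) (dir w)) := by
      nth_rewrite 1 [← norm_smul_dir hg]
      rw [inner_smul_right, inner_smul_left]; simp
    have e2 : inner ℝ (‖g‖ • dir w) (‖t‖ • dir g)
        = ‖t‖ * (‖g‖ * inner ℝ (dir g) (dir w)) := by
      rw [inner_smul_left, inner_smul_right, real_inner_comm (dir g) (dir w)]; simp; ring
    rw [e1, e2]
  calc ∫ w, (‖w‖ : ℂ) * Complex.exp ((inner ℝ (‖g‖ • dir w) t : ℝ) * Complex.I) ∂μ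
      = ∫ w, G (U w) ∂μ := by simp_rw [h2]
    _ = ∫ w, G w ∂μ := h1.symm
    _ = _ := by simp_rw [h3]

theorem invariant_integral_hom
    (μ : Measure E) [IsFiniteMeasure μ]
    (hμ : ∀ U : E ≃ₗᵢ[ℝ] E, μ.map U = μ)
    (hint : Integrable (fun w : E => ‖w‖) μ)
    (h : E → ℝ) (hmeas : Measurable h)
    (hhom : ∀ (t : ℝ), 0 ≤ t → ∀ x, h (t • x) = t * h x)
    (C : ℝ) (hC : ∀ x, |h x| ≤ C * ‖x‖) :
    (∫ g, ‖g‖ ∂(stdGaussian E)) * ∫ w, h w ∂μ
      = (∫ w, ‖w‖ ∂μ) * ∫ g, h g ∂(stdGaussian E) := by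
  have : CompleteSpace E := FiniteDimensional.complete ℝ E
  set γ : Measure E := stdGaussian E with hγ
  set b : ℝ := ∫ w, ‖w‖ ∂μ with hb
  have hb0 : 0 ≤ b := integral_nonneg (fun _ => norm_nonneg _)
  have hdir := measurable_dir (E := E)
  set μw : Measure E := μ.withDensity (fun w => ‖w‖ₑ) with hμw
  have hfin : IsFiniteMeasure μw := by
    apply isFiniteMeasure_withDensity
    have := hint.hasFiniteIntegral
    simpa [HasFiniteIntegral] using this.ne
  have hwdC : ∀ F : E → ℂ, ∫ w, F w ∂μw = ∫ w, (‖w‖ : ℂ) * F w ∂μ := by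
    intro F
    rw [hμw, integral_withDensity_eq_integral_toReal_smul (by fun_prop) (by simp)]
    congr 1
  have hwdR : ∀ F : E → ℝ, ∫ w, F w ∂μw = ∫ w, ‖w‖ * F w ∂μ := by
    intro F
    rw [hμw, integral_withDensity_eq_integral_toReal_smul (by fun_prop) (by simp)]
    congr 1
  set T : E × E → E := fun p => ‖p.2‖ • dir p.1 with hT
  have hTm : Measurable T := by fun_prop
  have hνeq : (μw.prod γ).map T = ENNReal.ofReal b • γ := by
    have : IsFiniteMeasure (ENNReal.ofReal b • γ) := Measure.smul_finite γ ENNReal.ofReal_ne_top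
    apply Measure.ext_of_charFun
    funext t
    have hγt : ∀ s : E, ∫ x, Complex.exp ((inner ℝ x s : ℝ) * Complex.I) ∂γ
        = Complex.exp (-(‖s‖ : ℂ) ^ 2 / 2) := by
      intro s
      rw [← charFun_apply, hγ, charFun_stdGaussian]
    rw [charFun_apply, charFun_apply,
      integral_map hTm.aemeasurable (by fun_prop : Measurable _).aestronglyMeasurable,
      integral_smul_measure, ENNReal.toReal_ofReal hb0, hγt]
    let F1 : E × E → ℂ := fun p =>
      Complex.exp ((inner ℝ (‖p.2‖ • dir p.1) t : ℝ) * Complex.I)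
    let F2 : E × E → ℂ := fun p =>
      Complex.exp ((inner ℝ p.2 (‖t‖ • dir p.1) : ℝ) * Complex.I)
    have hF1m : Measurable F1 := by fun_prop
    have hF2m : Measurable F2 := by fun_prop
    have hF1i : Integrable F1 (μw.prod γ) :=
      (integrable_const (1 : ℝ)).mono' hF1m.aestronglyMeasurable
        (Filter.Eventually.of_forall fun p => by simp [F1, Complex.norm_exp_ofReal_mul_I])
    have hF2i : Integrable F2 (μw.prod γ) :=
      (integrable_const (1 : ℝ)).mono' hF2m.aestronglyMeasurable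
        (Filter.Eventually.of_forall fun p => by simp [F2, Complex.norm_exp_ofReal_mul_I])
    have key : ∫ p, F1 p ∂(μw.prod γ) = ∫ p, F2 p ∂(μw.prod γ) := by
      rw [integral_prod_symm F1 hF1i, integral_prod_symm F2 hF2i]
      congr 1; funext g
      rw [hwdC, hwdC]
      exact inner_inv μ hμ t g
    change ∫ p, F1 p ∂(μw.prod γ) = _
    rw [key, integral_prod F2 hF2i]
    simp only [F2]
    simp_rw [hγt]
    rw [hwdC]
    have hpt : ∀ w : E, (‖w‖ : ℂ) * Complex.exp (-((‖‖t‖ • dir w‖ : ℝ) : ℂ) ^ 2 / 2)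
        = (‖w‖ : ℂ) * Complex.exp (-(‖t‖ : ℂ) ^ 2 / 2) := by
      intro w
      by_cases hw : w = 0
      · subst hw; simp
      · rw [norm_smul, norm_dir hw]; simp
    simp_rw [hpt]
    rw [integral_mul_const, integral_complex_ofReal, Complex.real_smul]
  have hh0 : h 0 = 0 := by
    have := hhom 0 le_rfl 0
    simpa using this
  have hhi : Integrable (fun p => h (T p)) (μw.prod γ) := by
    have hbd : Integrable (fun p : E × E => |C| * ‖p.2‖) (μw.prod γ) := by
      have h1 : Integrable (fun g : E => ‖g‖) γ := by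
        simpa using (IsGaussian.integrable_id (μ := γ)).norm
      exact (h1.comp_snd μw).const_mul |C|
    refine hbd.mono' (hmeas.comp hTm).aestronglyMeasurable (Filter.Eventually.of_forall fun p => ?_)
    have h1 : ‖T p‖ ≤ ‖p.2‖ := by
      simp only [hT, norm_smul, norm_norm]
      exact mul_le_of_le_one_right (norm_nonneg _) (norm_dir_le _)
    calc ‖h (T p)‖ = |h (T p)| := Real.norm_eq_abs _
      _ ≤ C * ‖T p‖ := hC _
      _ ≤ |C| * ‖T p‖ := mul_le_mul_of_nonneg_right (le_abs_self C) (norm_nonneg _)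
      _ ≤ |C| * ‖p.2‖ := mul_le_mul_of_nonneg_left h1 (abs_nonneg C)
  have I1 : ∫ x, h x ∂((μw.prod γ).map T) = (∫ g, ‖g‖ ∂γ) * ∫ w, h w ∂μ := by
    rw [integral_map hTm.aemeasurable hmeas.aestronglyMeasurable, integral_prod _ hhi, hwdR,
      ← integral_const_mul]
    congr 1; funext w
    by_cases hw : w = 0
    · subst hw; simp [hT, dir, hh0]
    · have hw' : ‖w‖ ≠ 0 := norm_ne_zero_iff.mpr hw
      have e : ∀ g : E, h (T (w, g)) = ‖g‖ * (‖w‖⁻¹ * h w) := by
        intro g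
        simp only [hT, dir, smul_smul]
        rw [hhom _ (mul_nonneg (norm_nonneg _) (inv_nonneg.mpr (norm_nonneg _)))]
        ring
      simp_rw [e]
      rw [integral_mul_const]
      field_simp
  have I2 : ∫ x, h x ∂(ENNReal.ofReal b • γ) = b * ∫ g, h g ∂γ := by
    rw [integral_smul_measure, ENNReal.toReal_ofReal hb0, smul_eq_mul]
  rw [← I1, hνeq, I2]

end Vale.Agent.Lib.P226.H7
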